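import Vale.Agent.P265.H336.Iface

/-! The standard box around a critical orbit of the lift of a function to a cyclic cover. -/

open Set Topology Manifold Filter Function
open scoped ContDiff

namespace Vale.Agent.P265.H256

open AS

variable {V M N Z : Type} [NormedAddCommGroup V] [NormedSpace ℝ V] [MetricSpace M]
  [ChartedSpace V M] [MetricSpace N] [NormedAddCommGroup Z] [NormedSpace ℝ Z] {n : ℕ}

/-- The number of the sheet of `x` relative to the local sheet through `x₀`. -/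
noncomputable def sheet (C : CycCover M N n) (x₀ x : N) : ℕ :=
  sInf {i | x = C.g^[i] (C.lift x₀ (C.π x))}

theorem iter_inj (C : CycCover M N n) (y : N) {i j : ℕ} (hi : i < n) (hj : j < n)
    (h : C.g^[i] y = C.g^[j] y) : i = j := by
  have key : ∀ i j : ℕ, i < n → j < n → i < j → C.g^[i] y ≠ C.g^[j] y := by
    intro i j hi hj hij h
    have hji : j = (j - i) + i := (Nat.sub_add_cancel hij.le).symm
    rw [hji, iterate_add_apply] at h
    exact C.free (C.g^[i] y) (j - i) (Nat.sub_pos_of_lt hij) (by omega) h.symm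
  rcases lt_trichotomy i j with h' | h' | h'
  · exact absurd h (key i j hi hj h')
  · exact h'
  · exact absurd h.symm (key j i hj hi h')

theorem sheet_spec (C : CycCover M N n) {x₀ x : N} (h : dist (C.π x₀) (C.π x) < C.δ) :
    sheet C x₀ x < n ∧ x = C.g^[sheet C x₀ x] (C.lift x₀ (C.π x)) := by
  obtain ⟨i, hi, hx⟩ := C.fiber (C.lift x₀ (C.π x)) x (C.π_lift x₀ (C.π x) h)
  have hne : {i | x = C.g^[i] (C.lift x₀ (C.π x))}.Nonempty := ⟨i, hx⟩
  exact ⟨(Nat.sInf_le (s := {i | x = C.g^[i] (C.lift x₀ (C.π x))}) hx).trans_lt hi,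
    Nat.sInf_mem hne⟩

theorem sheet_eq (C : CycCover M N n) {x₀ x : N} (h : dist (C.π x₀) (C.π x) < C.δ) {i : ℕ}
    (hi : i < n) (hx : x = C.g^[i] (C.lift x₀ (C.π x))) : sheet C x₀ x = i := by
  obtain ⟨h1, h2⟩ := sheet_spec C h
  exact iter_inj C (C.lift x₀ (C.π x)) h1 hi (h2.symm.trans hx)

theorem sheet_g (C : CycCover M N n) {x₀ x : N} (h : dist (C.π x₀) (C.π x) < C.δ) :
    sheet C x₀ (C.g x) = if sheet C x₀ x + 1 < n then sheet C x₀ x + 1 else 0 := by
  obtain ⟨h1, h2⟩ := sheet_spec C h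
  have hg : C.g x = C.g^[sheet C x₀ x + 1] (C.lift x₀ (C.π x)) := by
    rw [iterate_succ_apply', ← h2]
  have h' : dist (C.π x₀) (C.π (C.g x)) < C.δ := by rw [C.π_g]; exact h
  by_cases hlt : sheet C x₀ x + 1 < n
  · rw [if_pos hlt]
    refine sheet_eq C h' hlt ?_
    rw [C.π_g]; exact hg
  · rw [if_neg hlt]
    refine sheet_eq C h' C.n_pos ?_
    rw [C.π_g, hg, show sheet C x₀ x + 1 = n by omega, C.iter]
    rfl

theorem continuous_iterate (C : CycCover M N n) (i : ℕ) : Continuous (C.g^[i]) :=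
  C.cont_g.iterate i

/-- The sheet number is locally constant where it is meaningful. -/
theorem continuousOn_sheet (C : CycCover M N n) (x₀ : N) :
    ContinuousOn (sheet C x₀) {x | dist (C.π x₀) (C.π x) < C.δ} := by
  rw [continuousOn_iff_continuous_domRestrict, continuous_discrete_rng]
  set S : Set N := {x | dist (C.π x₀) (C.π x) < C.δ} with hS
  have hl : Continuous fun x : S => C.lift x₀ (C.π x.1) := by
    have := C.cont_lift.comp_continuous (f := fun x : S => (x₀, C.π x.1))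
      (continuous_const.prodMk (C.cont_π.comp continuous_subtype_val)) (fun x => x.2)
    exact this
  have hcl : ∀ i, IsClosed {x : S | x.1 = C.g^[i] (C.lift x₀ (C.π x.1))} := fun i =>
    isClosed_eq continuous_subtype_val ((continuous_iterate C i).comp hl)
  intro i
  by_cases hi : i < n
  · have : (S.domRestrict (sheet C x₀)) ⁻¹' {i} =
        (⋃ j ∈ (Finset.range n).erase i, {x : S | x.1 = C.g^[j] (C.lift x₀ (C.π x.1))})ᶜ := by
      ext x
      simp only [mem_preimage, domRestrict_apply, mem_singleton_iff, mem_compl_iff, mem_iUnion,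
        Finset.mem_erase, Finset.mem_range, mem_ofPred_eq, not_exists, exists_prop, not_and]
      constructor
      · intro h j hj hx
        exact hj.1 ((sheet_eq C x.2 hj.2 hx).symm.trans h)
      · intro h
        by_contra hne
        exact h _ ⟨hne, (sheet_spec C x.2).1⟩ (sheet_spec C x.2).2
    rw [this]
    exact (isClosed_biUnion_finset fun j _ => hcl j).isOpen_compl
  · have : (S.domRestrict (sheet C x₀)) ⁻¹' {i} = ∅ := by
      ext x
      simp only [mem_preimage, domRestrict_apply, mem_singleton_iff, mem_empty_iff_false, iff_false]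
      intro h
      exact hi (h ▸ (sheet_spec C x.2).1)
    rw [this]
    exact isOpen_empty

/-- The standard box around the orbit of critical points over `(m₀, z₀)`. -/
theorem exists_localBox (C : CycCover M N n) {K : Set Z} {m₀ : M} {z₀ : Z}
    (hz : z₀ ∈ interior K) (F : M × Z → ℝ) {p q : ℕ}
    (T : (V × Z) ≃L[ℝ] (Fin p → ℝ) × (Fin q → ℝ)) {r₀ : ℝ} (hr₀ : 0 < r₀)
    (hT : ∀ y, ‖T (y - extChartAt (𝓘(ℝ, V).prod 𝓘(ℝ, Z)) (m₀, z₀) (m₀, z₀))‖ ≤ r₀ →
      y ∈ (extChartAt (𝓘(ℝ, V).prod 𝓘(ℝ, Z)) (m₀, z₀)).target ∧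
      F ((extChartAt (𝓘(ℝ, V).prod 𝓘(ℝ, Z)) (m₀, z₀)).symm y) = F (m₀, z₀) -
        ∑ i, (T (y - extChartAt (𝓘(ℝ, V).prod 𝓘(ℝ, Z)) (m₀, z₀) (m₀, z₀))).1 i ^ 2 +
        ∑ j, (T (y - extChartAt (𝓘(ℝ, V).prod 𝓘(ℝ, Z)) (m₀, z₀) (m₀, z₀))).2 j ^ 2) :
    ∃ (r : ℝ) (θ : (Fin p → ℝ) × (Fin q → ℝ) → N × Z)
      (κ : N × Z → (Fin p → ℝ) × (Fin q → ℝ)) (σ : N × Z → ℕ) (L : Set (N × Z)), r ≤ r₀ ∧
      LocalBox (Prod.map C.g id) n (univ ×ˢ K) (fun x => F (C.π x.1, x.2)) p q (F (m₀, z₀))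
        r θ κ σ L ∧ ∀ x : N × Z, C.π x.1 = m₀ → x.2 = z₀ → x ∈ L ∧ κ x = 0 := by
  set e := extChartAt (𝓘(ℝ, V).prod 𝓘(ℝ, Z)) (m₀, z₀) with he
  set P₀ := e (m₀, z₀) with hP₀
  obtain ⟨x₀, hx₀⟩ := C.surj m₀
  have hsrc : (m₀, z₀) ∈ e.source := mem_extChartAt_source (m₀, z₀)
  have hso : IsOpen e.source := isOpen_extChartAt_source (m₀, z₀)
  have hec : ContinuousOn e e.source := continuousOn_extChartAt (m₀, z₀)
  have hesc : ContinuousOn e.symm e.target := continuousOn_extChartAt_symm (m₀, z₀)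
  -- the base box
  set b : (Fin p → ℝ) × (Fin q → ℝ) → M × Z := fun w => e.symm (T.symm w + P₀) with hb
  have hTb : ∀ w, T ((T.symm w + P₀) - P₀) = w := fun w => by simp
  have htgt : ∀ w, ‖w‖ ≤ r₀ → T.symm w + P₀ ∈ e.target := fun w hw =>
    (hT (T.symm w + P₀) (by rw [hTb]; exact hw)).1
  have hval : ∀ w, ‖w‖ ≤ r₀ →
      F (b w) = F (m₀, z₀) - ∑ i, w.1 i ^ 2 + ∑ j, w.2 j ^ 2 := fun w hw => by
    have := (hT (T.symm w + P₀) (by rw [hTb]; exact hw)).2
    rw [hTb] at this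
    exact this
  have heb : ∀ w, ‖w‖ ≤ r₀ → e (b w) = T.symm w + P₀ := fun w hw => e.right_inv (htgt w hw)
  have hbs : ∀ w, ‖w‖ ≤ r₀ → b w ∈ e.source := fun w hw => e.map_target (htgt w hw)
  have hκb : ∀ w, ‖w‖ ≤ r₀ → T (e (b w) - P₀) = w := fun w hw => by
    rw [heb w hw, hTb]
  have hb0 : b 0 = (m₀, z₀) := by
    simp only [hb, map_zero, zero_add, hP₀]
    exact e.left_inv hsrc
  have hbc : ContinuousOn b {w | ‖w‖ ≤ r₀} := by
    refine hesc.comp (Continuous.continuousOn ?_) fun w hw => htgt w hw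
    fun_prop
  have hb0c : ContinuousAt b 0 := by
    refine hbc.continuousAt ?_
    have : Metric.closedBall (0 : (Fin p → ℝ) × (Fin q → ℝ)) r₀ ∈ 𝓝 0 :=
      Metric.closedBall_mem_nhds _ hr₀
    refine mem_of_superset this fun w hw => ?_
    simpa using hw
  have hnb : {y : M × Z | dist m₀ y.1 < C.δ ∧ y.2 ∈ K} ∈ 𝓝 (b 0) := by
    rw [hb0]
    refine inter_mem ?_ ?_
    · have : Continuous fun y : M × Z => dist m₀ y.1 := by fun_prop
      exact (isOpen_lt this continuous_const).mem_nhds (by simpa using C.δ_pos)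
    · exact continuousAt_snd.preimage_mem_nhds (mem_interior_iff_mem_nhds.1 hz)
  obtain ⟨ρ, hρ, hρb⟩ := Metric.mem_nhds_iff.1 (hb0c.preimage_mem_nhds hnb)
  have hr : 0 < min r₀ (ρ / 2) := lt_min hr₀ (by positivity)
  set r := min r₀ (ρ / 2) with hrdef
  have hrr : r ≤ r₀ := min_le_left _ _
  have hbK : ∀ w, ‖w‖ ≤ r → dist m₀ (b w).1 < C.δ ∧ (b w).2 ∈ K := fun w hw => by
    refine hρb ?_
    rw [Metric.mem_ball, dist_zero_right]
    exact (hw.trans (min_le_right _ _)).trans_lt (by linarith)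
  -- the box upstairs
  set L : Set (N × Z) := {x | ∃ w, ‖w‖ ≤ r ∧ (C.π x.1, x.2) = b w} with hL
  set κ : N × Z → (Fin p → ℝ) × (Fin q → ℝ) := fun x => T (e (C.π x.1, x.2) - P₀) with hκ
  set θ : (Fin p → ℝ) × (Fin q → ℝ) → N × Z := fun w => (C.lift x₀ (b w).1, (b w).2) with hθ
  have hLκ : ∀ x ∈ L, ‖κ x‖ ≤ r ∧ (C.π x.1, x.2) = b (κ x) := by
    rintro x ⟨w, hw, hxw⟩
    have : κ x = w := by
      simp only [hκ]
      rw [hxw]
      exact hκb w (hw.trans hrr)
    rw [this]
    exact ⟨hw, hxw⟩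
  have hLd : ∀ x ∈ L, dist (C.π x₀) (C.π x.1) < C.δ := fun x hx => by
    obtain ⟨h1, h2⟩ := hLκ x hx
    have : C.π x.1 = (b (κ x)).1 := congrArg Prod.fst h2
    rw [hx₀, this]
    exact (hbK _ h1).1
  have hπθ : ∀ w, ‖w‖ ≤ r → (C.π (θ w).1, (θ w).2) = b w := fun w hw => by
    simp only [hθ]
    rw [C.π_lift x₀ (b w).1 (by rw [hx₀]; exact (hbK w hw).1)]
  have hθL : ∀ w, ‖w‖ ≤ r → θ w ∈ L := fun w hw => ⟨w, hw, hπθ w hw⟩
  have hLnhds : ∀ x ∈ L, ‖κ x‖ < r → L ∈ 𝓝 x := by
    intro x hx hxr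
    obtain ⟨h1, h2⟩ := hLκ x hx
    have hxs : (C.π x.1, x.2) ∈ e.source := h2 ▸ hbs _ (h1.trans hrr)
    have hc : ContinuousAt (fun x : N × Z => (C.π x.1, x.2)) x :=
      ((C.cont_π.comp continuous_fst).prodMk continuous_snd).continuousAt
    have hκc : ContinuousAt κ x := by
      have h3 : ContinuousAt (fun x : N × Z => e (C.π x.1, x.2)) x :=
        ContinuousAt.comp (f := fun x : N × Z => (C.π x.1, x.2)) (g := e)
          (hec.continuousAt (hso.mem_nhds hxs)) hc
      exact T.continuous.continuousAt.comp (h3.sub continuousAt_const)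
    have hU : {y : N × Z | (C.π y.1, y.2) ∈ e.source ∧ ‖κ y‖ < r} ∈ 𝓝 x :=
      inter_mem (hc.preimage_mem_nhds (hso.mem_nhds hxs))
        ((continuous_norm.continuousAt.comp hκc).preimage_mem_nhds (Iio_mem_nhds hxr))
    refine mem_of_superset hU ?_
    rintro y ⟨hy1, hy2⟩
    refine ⟨κ y, hy2.le, ?_⟩
    simp only [hb, hκ]
    rw [ContinuousLinearEquiv.symm_apply_apply, sub_add_cancel]
    exact (e.left_inv hy1).symm
  have hπc : Continuous fun x : N × Z => (C.π x.1, x.2) :=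
    (C.cont_π.comp continuous_fst).prodMk continuous_snd
  refine ⟨r, θ, κ, fun x => sheet C x₀ x.1, L, hrr, ?_, ?_⟩
  · refine
      { r_pos := hr
        L_sub := ?_
        inv := ?_
        θ_mem := hθL
        κ_le := fun x hx => (hLκ x hx).1
        κ_θ := ?_
        σ_θ := ?_
        κ_g := ?_
        σ_g := ?_
        σ_lt := fun x hx => (sheet_spec C (hLd x hx)).1
        eq := ?_
        cont_θ := ?_
        cont_κ := ?_
        cont_σ := ?_
        nhds := fun x hx hxr => mem_nhdsWithin_of_mem_nhds (hLnhds x hx hxr)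
        value := ?_ }
    · rintro x ⟨w, hw, hxw⟩
      refine ⟨mem_univ _, ?_⟩
      have : x.2 = (b w).2 := congrArg Prod.snd hxw
      rw [this]
      exact (hbK w hw).2
    · rintro ⟨x, z⟩
      simp only [hL, mem_ofPred_eq, Prod.map_apply, id_eq, C.π_g]
    · intro w hw
      simp only [hκ]
      rw [hπθ w hw]
      exact hκb w (hw.trans hrr)
    · intro w hw
      refine sheet_eq C (hLd _ (hθL w hw)) C.n_pos ?_
      have h1 : C.π (θ w).1 = (b w).1 := congrArg Prod.fst (hπθ w hw)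
      rw [h1]
      rfl
    · rintro ⟨x, z⟩ hx
      simp only [hκ, Prod.map_apply, id_eq, C.π_g]
    · rintro ⟨x, z⟩ hx
      simp only [Prod.map_apply]
      exact sheet_g C (hLd _ hx)
    · intro x hx
      obtain ⟨h1, h2⟩ := hLκ x hx
      rw [Prod.map_iterate, iterate_id]
      ext
      · simp only [Prod.map_apply, hθ]
        rw [← congrArg Prod.fst h2]
        exact (sheet_spec C (hLd x hx)).2
      · simp only [Prod.map_apply, hθ, id_eq]
        exact congrArg Prod.snd h2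
    · have hb' : ContinuousOn b {w | ‖w‖ ≤ r} := hbc.mono fun w hw => le_trans hw hrr
      refine ContinuousOn.prodMk ?_ (continuous_snd.comp_continuousOn hb')
      refine C.cont_lift.comp (f := fun w => (x₀, (b w).1))
        (continuousOn_const.prodMk (continuous_fst.comp_continuousOn hb')) ?_
      intro w hw
      simp only [mem_ofPred_eq]
      rw [hx₀]
      exact (hbK w hw).1
    · refine T.continuous.comp_continuousOn (ContinuousOn.sub ?_ continuousOn_const)
      refine hec.comp hπc.continuousOn ?_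
      intro x hx
      obtain ⟨h1, h2⟩ := hLκ x hx
      change (C.π x.1, x.2) ∈ e.source
      rw [h2]
      exact hbs _ (h1.trans hrr)
    · exact (continuousOn_sheet C x₀).comp continuous_fst.continuousOn fun x hx => hLd x hx
    · intro x hx
      obtain ⟨h1, h2⟩ := hLκ x hx
      rw [h2]
      exact hval _ (h1.trans hrr)
  · intro x hx1 hx2
    have hxx : (C.π x.1, x.2) = b 0 := by rw [hx1, hx2, hb0]
    refine ⟨⟨0, by rw [norm_zero]; exact hr.le, hxx⟩, ?_⟩
    simp only [hκ]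
    rw [hxx]
    exact hκb 0 (by rw [norm_zero]; exact hr₀.le)

end Vale.Agent.P265.H256
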